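import Vale.Agent.P101.Lit.Model.Flow

/-! P101: the scalar limit is simple and has a unique trace (stated on the stages). -/

namespace Vale.Agent.P101.Lit

open scoped unitInterval ComplexOrder

/-- A nonzero element is, further on, nonzero at every point. -/
theorem exists_push_ne_zero (i : ℕ) (g : St ℂ (pp i) (qq i)) (hg : g ≠ 0) :
    ∃ n, ∀ t, (push ℂ i n g : Amb ℂ (pp (i + n)) (qq (i + n))) t ≠ 0 := by
  obtain ⟨t₀, ht₀⟩ : ∃ t₀, (g : Amb ℂ (pp i) (qq i)) t₀ ≠ 0 := by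
    by_contra h
    push Not at h
    exact hg (Subtype.ext (ContinuousMap.ext h))
  obtain ⟨δ, hδ, hmod⟩ := exists_modulus (g : Amb ℂ (pp i) (qq i))
    (half_pos (norm_pos_iff.2 ht₀))
  obtain ⟨n, hn⟩ := exists_pow_lt_of_lt_one hδ (by norm_num : (1 / 2 : ℝ) < 1)
  refine ⟨n, fun t h0 => ?_⟩
  obtain ⟨W, hW, hW', V, lam, hV, -, hcov, hpush⟩ := exists_eigen i n
  beta_reduce at hpush
  obtain ⟨a, ha, ha1, ha2⟩ : ∃ a : ℕ, a < 2 ^ n ∧ (a : ℝ) ≤ (t₀ : ℝ) * 2 ^ n ∧
      (t₀ : ℝ) * 2 ^ n ≤ (a : ℝ) + 1 := by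
    have h0' : 0 ≤ (t₀ : ℝ) * 2 ^ n := mul_nonneg t₀.2.1 (by positivity)
    rcases lt_or_ge ⌊(t₀ : ℝ) * 2 ^ n⌋₊ (2 ^ n) with hl | hl
    · exact ⟨_, hl, Nat.floor_le h0', (Nat.lt_floor_add_one _).le⟩
    · have h1 : ((2 ^ n : ℕ) : ℝ) ≤ (t₀ : ℝ) * 2 ^ n :=
        (Nat.cast_le.2 hl).trans (Nat.floor_le h0')
      refine ⟨2 ^ n - 1, Nat.sub_lt (by positivity) Nat.one_pos, ?_, ?_⟩
      · exact le_trans (Nat.cast_le.2 (Nat.sub_le _ _)) h1
      · rw [Nat.cast_sub Nat.one_le_two_pow]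
        push_cast
        rw [sub_add_cancel]
        exact mul_le_of_le_one_left (by positivity) t₀.2.2
  obtain ⟨w, hw⟩ := hcov a ha
  have hz : Matrix.blockDiagonal (fun w => mat (g : Amb ℂ (pp i) (qq i)) (lam w t)) = 0 := by
    have h := hpush g t
    rw [show mat (push ℂ i n g : Amb ℂ (pp (i + n)) (qq (i + n))) t = 0 from
      Matrix.ext fun x y => by simp only [mat, h0]; rfl] at h
    have h' := congrArg (fun M => (V t).conjTranspose * M * V t) h
    simp only [Matrix.mul_zero, Matrix.zero_mul, Matrix.mul_assoc, (hV t).1, Matrix.mul_one] at h'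
    rw [← Matrix.mul_assoc (V t).conjTranspose, (hV t).1, Matrix.one_mul] at h'
    exact h'.symm
  have hgz : (g : Amb ℂ (pp i) (qq i)) (lam w t) = 0 := CStarMatrix.ext fun x y => by
    have h := congrFun (congrFun hz (x, w)) (y, w)
    simpa [Matrix.blockDiagonal_apply, mat] using h
  have hb := hmod t₀ (lam w t) (by
    refine lt_of_le_of_lt ?_ hn
    rw [hw, one_div, inv_pow, abs_le]
    have hp : (0 : ℝ) < 2 ^ n := by positivity
    constructor
    · rw [le_sub_iff_add_le, ← one_div, ← neg_div, ← add_div, div_le_iff₀ hp]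
      linarith [t.2.2]
    · rw [sub_le_iff_le_add, ← one_div, ← add_div, le_div_iff₀ hp]
      linarith [t.2.1])
  rw [hgz, sub_zero] at hb
  linarith [norm_pos_iff.2 ht₀]

/-- Further on, the normalised trace is nearly independent of the point. -/
theorem exists_push_trace (i : ℕ) (g : St ℂ (pp i) (qq i)) {ε : ℝ} (hε : 0 < ε) :
    ∃ n, ∀ s t, ‖∑ x, ((push ℂ i n g : Amb ℂ (pp (i + n)) (qq (i + n))) s x x
        - (push ℂ i n g : Amb ℂ (pp (i + n)) (qq (i + n))) t x x)‖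
      ≤ ε * (pp (i + n) * qq (i + n)) := by
  obtain ⟨δ, hδ, hmod⟩ := exists_modulus (g : Amb ℂ (pp i) (qq i)) hε
  obtain ⟨n, hn⟩ := exists_pow_lt_of_lt_one hδ (by norm_num : (1 / 2 : ℝ) < 1)
  refine ⟨n, fun s t => ?_⟩
  obtain ⟨W, hW, hW', V, lam, hV, hlip, -, hpush⟩ := exists_eigen i n
  beta_reduce at hpush
  have htr : ∀ u, ∑ x, (push ℂ i n g : Amb ℂ (pp (i + n)) (qq (i + n))) u x x =
      ∑ z : Ix (pp i) (qq i) × W, (g : Amb ℂ (pp i) (qq i)) (lam z.2 u) z.1 z.1 := by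
    intro u
    calc ∑ x, (push ℂ i n g : Amb ℂ (pp (i + n)) (qq (i + n))) u x x
        = Matrix.trace (mat (push ℂ i n g : Amb ℂ (pp (i + n)) (qq (i + n))) u) := rfl
      _ = Matrix.trace (Matrix.blockDiagonal fun w => mat (g : Amb ℂ (pp i) (qq i)) (lam w u)) := by
        rw [hpush, Matrix.trace_mul_cycle, (hV u).1, Matrix.one_mul]
      _ = _ := by simp [Matrix.trace, Matrix.blockDiagonal_apply, mat]
  have hcard : (Fintype.card (Ix (pp i) (qq i) × W) : ℂ) =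
      (Fintype.card (Ix (pp (i + n)) (qq (i + n))) : ℂ) := by
    rw [← Matrix.trace_one, ← Matrix.trace_one, ← (hV s).1, Matrix.trace_mul_comm, (hV s).2]
  rw [Finset.sum_sub_distrib, htr, htr, ← Finset.sum_sub_distrib]
  refine (norm_sum_le _ _).trans ((Finset.sum_le_sum (g := fun _ => ε) fun z _ => ?_).trans
    (le_of_eq ?_))
  · refine le_trans ?_ (hmod (lam z.2 s) (lam z.2 t) ?_)
    · exact CStarMatrix.norm_entry_le_norm (M := (g : Amb ℂ (pp i) (qq i)) (lam z.2 s) -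
        (g : Amb ℂ (pp i) (qq i)) (lam z.2 t)) (i := z.1) (j := z.1)
    · refine lt_of_le_of_lt ((hlip _ _ _).trans ?_) hn
      rw [one_div, inv_pow, div_eq_mul_inv]
      refine mul_le_of_le_one_left (by positivity) ?_
      rw [abs_le]
      constructor <;> linarith [s.2.1, s.2.2, t.2.1, t.2.2]
  · rw [Finset.sum_const, nsmul_eq_mul, Finset.card_univ, Nat.cast_inj.1 hcard]
    simp [mul_comm]

end Vale.Agent.P101.Lit
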