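import Vale.Agent.P101.Lit.Model.Push

/-! P101: deep in the sequence, elements are almost unitary flows of their left endpoint. -/

namespace Vale.Agent.P101.Lit

open scoped unitInterval ComplexOrder

/-- `u` carries the left endpoint value of every element of `G` almost to all its values. -/
def IsFlow {p q : ℕ} (G : Set (St ℂ p q)) (ε : ℝ) (u : Amb ℂ p q) : Prop :=
  u 0 = 1 ∧ (∀ t, u t ∈ unitary (CStarMatrix (Ix p q) (Ix p q) ℂ)) ∧
    ∀ g ∈ G, ∀ t, ‖u t * (g : Amb ℂ p q) 0 * star (u t) - (g : Amb ℂ p q) t‖ ≤ ε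

/-- The value at a point, as a matrix. -/
noncomputable def mat {p q : ℕ} (f : Amb ℂ p q) (t : I) : Matrix (Ix p q) (Ix p q) ℂ := fun x y => f t x y

theorem blockSum {m α W : Type*} [Fintype α] [Fintype W] [DecidableEq W]
    (U : Matrix m (α × W) ℂ) (F : W → Matrix α α ℂ) (x y : m) :
    (U * Matrix.blockDiagonal F * U.conjTranspose) x y =
      ∑ w, ∑ i, ∑ i', (U x (i, w) * star (U y (i', w))) * F w i i' := by
  simp only [Matrix.mul_apply, Matrix.conjTranspose_apply, Fintype.sum_prod_type_right,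
    Matrix.blockDiagonal_apply, mul_ite, mul_zero, Finset.sum_mul, ite_mul, zero_mul]
  refine Finset.sum_congr rfl fun w _ => ?_
  rw [Finset.sum_comm (γ := α) (t := Finset.univ)]
  simp [Finset.sum_ite_eq']
  rw [Finset.sum_comm]
  exact Finset.sum_congr rfl fun i _ => Finset.sum_congr rfl fun i' _ => by ring

theorem stepVal_eq_sandwich {p q k₀ k₁ : ℕ}
    (U : Matrix (Ix (k₀ * p) (k₁ * q)) (Ix p q × Wd p q k₀ k₁) ℂ)
    (F : Wd p q k₀ k₁ → Matrix (Ix p q) (Ix p q) ℂ) (x y : Ix (k₀ * p) (k₁ * q)) :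
    stepVal U (fun w i i' => F w i i') x y =
      (U * Matrix.blockDiagonal F * U.conjTranspose) x y := by
  rw [blockSum]
  rfl

theorem reindex_sandwich {m β γ : Type*} [Fintype β] [Fintype γ] (Q : Matrix m γ ℂ) (e : β ≃ γ)
    (A : Matrix γ γ ℂ) :
    Q.submatrix id e * A.submatrix e e * (Q.submatrix id e).conjTranspose =
      Q * A * Q.conjTranspose := by
  rw [Matrix.conjTranspose_submatrix, Matrix.submatrix_mul_equiv, Matrix.submatrix_mul_equiv,
    Matrix.submatrix_id_id]

theorem reindex_unitary {m β γ : Type*} [Fintype m] [DecidableEq m] [Fintype β] [DecidableEq β]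
    [Fintype γ] [DecidableEq γ] (Q : Matrix m γ ℂ) (e : β ≃ γ) (h1 : Q.conjTranspose * Q = 1)
    (h2 : Q * Q.conjTranspose = 1) :
    (Q.submatrix id e).conjTranspose * Q.submatrix id e = 1 ∧
      Q.submatrix id e * (Q.submatrix id e).conjTranspose = 1 := by
  rw [Matrix.conjTranspose_submatrix]
  constructor
  · rw [← Matrix.submatrix_mul _ _ _ _ _ Function.bijective_id, h1, Matrix.submatrix_one_equiv]
  · rw [Matrix.submatrix_mul_equiv, h2, Matrix.submatrix_id_id]

theorem mul_blockDiagonal_unitary {m α β X : Type*} [Fintype m] [DecidableEq m] [Fintype α]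
    [DecidableEq α] [Fintype β] [DecidableEq β] [Fintype X] [DecidableEq X]
    (P : Matrix m (α × X) ℂ) (B : X → Matrix α β ℂ)
    (h1 : P.conjTranspose * P = 1) (h2 : P * P.conjTranspose = 1)
    (hB1 : ∀ x, (B x).conjTranspose * B x = 1) (hB2 : ∀ x, B x * (B x).conjTranspose = 1) :
    (P * Matrix.blockDiagonal B).conjTranspose * (P * Matrix.blockDiagonal B) = 1 ∧
      (P * Matrix.blockDiagonal B) * (P * Matrix.blockDiagonal B).conjTranspose = 1 := by
  rw [Matrix.conjTranspose_mul, Matrix.blockDiagonal_conjTranspose]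
  constructor
  · rw [Matrix.mul_assoc, ← Matrix.mul_assoc P.conjTranspose, h1, Matrix.one_mul,
      ← Matrix.blockDiagonal_mul]
    simp only [hB1]
    exact Matrix.blockDiagonal_one
  · rw [Matrix.mul_assoc, ← Matrix.mul_assoc (Matrix.blockDiagonal B),
      ← Matrix.blockDiagonal_mul]
    simp only [hB2]
    rw [show (fun _ : X => (1 : Matrix α α ℂ)) = 1 from rfl, Matrix.blockDiagonal_one,
      Matrix.one_mul, h2]

theorem mat_stepHom (j : ℕ) (f : St ℂ (pp j) (qq j)) (t : I) :
    mat (stepHom ℂ j f : Amb ℂ (pp (j + 1)) (qq (j + 1))) t =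
      stepPath (pp j) (qq j) (kl j) (kr j) t *
        Matrix.blockDiagonal (fun w => mat (f : Amb ℂ (pp j) (qq j))
          (xi (pp j) (qq j) (kl j) (kr j) w t)) *
        (stepPath (pp j) (qq j) (kl j) (kr j) t).conjTranspose :=
  Matrix.ext fun x y => stepVal_eq_sandwich _ _ x y

theorem blockDiagonal_assoc {m W X : Type*} [DecidableEq W] [DecidableEq X]
    (A : W → X → Matrix m m ℂ) :
    Matrix.blockDiagonal (fun x => Matrix.blockDiagonal fun w => A w x) =
      (Matrix.blockDiagonal fun z : W × X => A z.1 z.2).submatrix (Equiv.prodAssoc m W X)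
        (Equiv.prodAssoc m W X) := by
  ext ⟨⟨i, w⟩, x⟩ ⟨⟨i', w'⟩, x'⟩
  simp only [Matrix.blockDiagonal_apply, Matrix.submatrix_apply, Equiv.prodAssoc_apply,
    Prod.mk.injEq]
  split_ifs <;> simp_all

theorem r_pos {p q k₀ k₁ : ℕ} (h : StepOK p q k₀ k₁) :
    0 < r₀ q k₀ k₁ ∧ 0 < r₁ p k₀ k₁ :=
  ⟨Nat.mul_pos ((Nat.zero_le _).trans_lt h.2.2.2.1) h.2.2.2.2.1,
    Nat.mul_pos ((Nat.zero_le _).trans_lt h.2.2.1) h.2.2.2.2.2⟩

theorem xi_lip {p q k₀ k₁ : ℕ} (w : Wd p q k₀ k₁) (s t : I) :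
    |(xi p q k₀ k₁ w s : ℝ) - xi p q k₀ k₁ w t| ≤ |(s : ℝ) - t| / 2 := by
  rcases w with w | w | w
  · show |(s : ℝ) / 2 - t / 2| ≤ _
    rw [← sub_div, abs_div, abs_two]
  · show |(1 : ℝ) / 2 - 1 / 2| ≤ _
    rw [sub_self, abs_zero]; positivity
  · show |((s : ℝ) + 1) / 2 - (t + 1) / 2| ≤ _
    rw [← sub_div, add_sub_add_right_eq_sub, abs_div, abs_two]

/-- `h` is in eigen form over `k` with depth `n`: conjugate to the diagonal of `k` at eigenvalue
functions contracting by `2 ^ n` and containing every `t ↦ (a + t) / 2 ^ n`. -/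
def HasEigen (n : ℕ) {m : Type} [Fintype m] [DecidableEq m] {p q : ℕ} {G : Type}
    (k : G → I → Matrix (Ix p q) (Ix p q) ℂ) (h : G → I → Matrix m m ℂ) : Prop :=
  ∃ (W : Type) (_ : Fintype W) (_ : DecidableEq W)
    (V : C(I, Matrix m (Ix p q × W) ℂ)) (lam : W → C(I, I)),
    (∀ t, (V t).conjTranspose * V t = 1 ∧ V t * (V t).conjTranspose = 1) ∧
    (∀ w s t, |(lam w s : ℝ) - lam w t| ≤ |(s : ℝ) - t| / 2 ^ n) ∧
    (∀ a < 2 ^ n, ∃ w, ∀ t, (lam w t : ℝ) = ((a : ℕ) + (t : ℝ)) / 2 ^ n) ∧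
    ∀ g t, h g t =
      V t * Matrix.blockDiagonal (fun w => k g (lam w t)) * (V t).conjTranspose

theorem hasEigen_succ {n p q : ℕ} {G : Type} {k : G → I → Matrix (Ix p q) (Ix p q) ℂ}
    {m m' X : Type} [Fintype m] [DecidableEq m] [Fintype m'] [DecidableEq m'] [Fintype X]
    [DecidableEq X] {h : G → I → Matrix m m ℂ} {h' : G → I → Matrix m' m' ℂ}
    (hh : HasEigen n k h) (P : C(I, Matrix m' (m × X) ℂ)) (ξ : X → C(I, I))
    (hP : ∀ t, (P t).conjTranspose * P t = 1 ∧ P t * (P t).conjTranspose = 1)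
    (hξ : ∀ x s t, |(ξ x s : ℝ) - ξ x t| ≤ |(s : ℝ) - t| / 2)
    (h0 : ∃ x, ∀ t, (ξ x t : ℝ) = (t : ℝ) / 2) (h1 : ∃ x, ∀ t, (ξ x t : ℝ) = ((t : ℝ) + 1) / 2)
    (hstep : ∀ g t, h' g t =
      P t * Matrix.blockDiagonal (fun x => h g (ξ x t)) * (P t).conjTranspose) :
    HasEigen (n + 1) k h' := by
  obtain ⟨W, hW, hW', V, lam, hV, hlip, hcov, hpush⟩ := hh
  let e := (Equiv.prodAssoc (Ix p q) W X).symm
  refine ⟨W × X, inferInstance, inferInstance,
    ⟨fun t => (P t * Matrix.blockDiagonal fun x => V (ξ x t)).submatrix id e, ?_⟩,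
    fun z => (lam z.1).comp (ξ z.2), fun t => ?_, fun z s t => ?_, fun a ha => ?_, fun g t => ?_⟩
  · exact (P.continuous.matrix_mul (Continuous.matrix_blockDiagonal
      (continuous_pi fun x => V.continuous.comp (ξ x).continuous))).matrix_submatrix _ _
  · obtain ⟨q1, q2⟩ := mul_blockDiagonal_unitary (P t) (fun x => V (ξ x t)) (hP t).1 (hP t).2
      (fun x => (hV _).1) fun x => (hV _).2
    exact reindex_unitary _ e q1 q2
  · show |(lam z.1 (ξ z.2 s) : ℝ) - lam z.1 (ξ z.2 t)| ≤ _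
    refine (hlip _ _ _).trans ?_
    rw [pow_succ, div_mul_eq_div_div, div_right_comm _ (2 ^ n : ℝ)]
    exact div_le_div_of_nonneg_right (hξ _ _ _) (by positivity)
  · obtain ⟨x0, hx0⟩ := h0
    obtain ⟨x1, hx1⟩ := h1
    have ha2 : a / 2 < 2 ^ n := by rw [pow_succ] at ha; omega
    obtain ⟨w, hw⟩ := hcov _ ha2
    rcases Nat.even_or_odd a with ⟨b, hb⟩ | ⟨b, hb⟩
    · refine ⟨(w, x0), fun t => ?_⟩
      show (lam w (ξ x0 t) : ℝ) = _
      rw [hw, show a / 2 = b by omega, hb, hx0]
      push_cast [pow_succ]; field_simp; ring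
    · refine ⟨(w, x1), fun t => ?_⟩
      show (lam w (ξ x1 t) : ℝ) = _
      rw [hw, show a / 2 = b by omega, hb, hx1]
      push_cast [pow_succ]; field_simp; ring
  · have hA : Matrix.blockDiagonal
        (fun z : W × X => k g (lam z.1 (ξ z.2 t))) =
        (Matrix.blockDiagonal fun x => Matrix.blockDiagonal fun w =>
          k g (lam w (ξ x t))).submatrix e e := by
      rw [blockDiagonal_assoc fun w x => k g (lam w (ξ x t)), Matrix.submatrix_submatrix]
      simp [e]
    simp only [ContinuousMap.comp_apply, ContinuousMap.coe_mk]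
    rw [hA, reindex_sandwich, hstep]
    simp only [hpush, Matrix.blockDiagonal_mul, ← Matrix.blockDiagonal_conjTranspose,
      Matrix.conjTranspose_mul, Matrix.mul_assoc]

/-- The composed connecting map is in eigen form. -/
theorem exists_eigen (i n : ℕ) :
    HasEigen n (fun (g : St ℂ (pp i) (qq i)) t => mat (g : Amb ℂ (pp i) (qq i)) t)
      (fun g t => mat (push ℂ i n g : Amb ℂ (pp (i + n)) (qq (i + n))) t) := by
  induction n with
  | zero =>
    refine ⟨Unit, inferInstance, inferInstance,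
      ContinuousMap.const I ((1 : Matrix (Ix (pp i) (qq i)) (Ix (pp i) (qq i)) ℂ).submatrix id
        Prod.fst), fun _ => ContinuousMap.id I, fun t => ⟨?_, ?_⟩, fun _ s t => by simp,
      fun a ha => ⟨(), fun t => ?_⟩, fun g t => ?_⟩
    · ext ⟨x, u⟩ ⟨y, v⟩
      simp [Matrix.mul_apply, Matrix.one_apply]
    · ext x y
      simp [Matrix.mul_apply, Matrix.one_apply, Fintype.sum_prod_type]
      split_ifs <;> simp
    · rw [pow_zero, Nat.lt_one_iff] at ha
      subst ha
      simp
    · ext x y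
      simp [Matrix.mul_apply, Fintype.sum_prod_type, Matrix.blockDiagonal_apply, Matrix.one_apply,
        mat]
      rfl
  | succ n ih =>
    obtain ⟨r0, r1⟩ := r_pos (stepOK_pp (i + n))
    exact hasEigen_succ ih (stepPath (pp (i + n)) (qq (i + n)) (kl (i + n)) (kr (i + n)))
      (xi (pp (i + n)) (qq (i + n)) (kl (i + n)) (kr (i + n)))
      (isStepPath_stepPath (stepOK_pp (i + n))).1 xi_lip
      ⟨Sum.inl ⟨0, r0⟩, fun _ => rfl⟩ ⟨Sum.inr (Sum.inr ⟨0, r1⟩), fun _ => rfl⟩
      (fun g t => mat_stepHom (i + n) (push ℂ i n g) t)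

/-- Sandwiching block diagonals between a unitary and its adjoint is a star homomorphism, hence
contractive. -/
theorem norm_sandwich_le {p q P Q : ℕ} {W : Type} [Fintype W] [DecidableEq W]
    (V : Matrix (Ix P Q) (Ix p q × W) ℂ) (h1 : V.conjTranspose * V = 1)
    (h2 : V * V.conjTranspose = 1) (F : W → CStarMatrix (Ix p q) (Ix p q) ℂ) {c : ℝ}
    (hc : 0 ≤ c) (hF : ∀ w, ‖F w‖ ≤ c) :
    ‖CStarMatrix.ofMatrix (V * Matrix.blockDiagonal (fun w => CStarMatrix.ofMatrix.symm (F w)) *
      V.conjTranspose)‖ ≤ c := by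
  let Φ : (W → CStarMatrix (Ix p q) (Ix p q) ℂ) →⋆ₐ[ℂ] CStarMatrix (Ix P Q) (Ix P Q) ℂ :=
    { toFun := fun A => CStarMatrix.ofMatrix
        (V * Matrix.blockDiagonal (fun w => CStarMatrix.ofMatrix.symm (A w)) * V.conjTranspose)
      map_one' := by
        show CStarMatrix.ofMatrix (V * Matrix.blockDiagonal
          (1 : W → Matrix (Ix p q) (Ix p q) ℂ) * V.conjTranspose) = 1
        rw [Matrix.blockDiagonal_one, Matrix.mul_one, h2]
        rfl
      map_mul' := fun A A' => by
        show V * Matrix.blockDiagonal (fun w => CStarMatrix.ofMatrix.symm (A w) *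
            CStarMatrix.ofMatrix.symm (A' w)) * V.conjTranspose =
          (V * Matrix.blockDiagonal (fun w => CStarMatrix.ofMatrix.symm (A w)) * V.conjTranspose) *
            (V * Matrix.blockDiagonal (fun w => CStarMatrix.ofMatrix.symm (A' w)) * V.conjTranspose)
        simp only [Matrix.mul_assoc]
        rw [← Matrix.mul_assoc V.conjTranspose V, h1, Matrix.one_mul, Matrix.blockDiagonal_mul,
          Matrix.mul_assoc]
      map_zero' := by
        show V * Matrix.blockDiagonal (0 : W → Matrix (Ix p q) (Ix p q) ℂ) * V.conjTranspose = 0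
        rw [Matrix.blockDiagonal_zero, Matrix.mul_zero, Matrix.zero_mul]
      map_add' := fun A A' => by
        show V * Matrix.blockDiagonal ((fun w => CStarMatrix.ofMatrix.symm (A w)) +
            fun w => CStarMatrix.ofMatrix.symm (A' w)) * V.conjTranspose = _
        rw [Matrix.blockDiagonal_add, Matrix.mul_add, Matrix.add_mul]
        rfl
      commutes' := fun r => by
        show V * Matrix.blockDiagonal (fun _ : W => CStarMatrix.ofMatrix.symm
          (algebraMap ℂ (CStarMatrix (Ix p q) (Ix p q) ℂ) r)) * V.conjTranspose = _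
        rw [show (fun _ : W => CStarMatrix.ofMatrix.symm
            (algebraMap ℂ (CStarMatrix (Ix p q) (Ix p q) ℂ) r)) =
            r • (1 : W → Matrix (Ix p q) (Ix p q) ℂ) from funext fun w => by
          rw [Algebra.algebraMap_eq_smul_one]; rfl, Matrix.blockDiagonal_smul,
          Matrix.blockDiagonal_one, Matrix.mul_smul, Matrix.smul_mul, Matrix.mul_one, h2,
          Algebra.algebraMap_eq_smul_one]
        rfl
      map_star' := fun A => by
        show V * Matrix.blockDiagonal (fun w => (CStarMatrix.ofMatrix.symm (A w)).conjTranspose) *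
            V.conjTranspose = (V * Matrix.blockDiagonal (fun w => CStarMatrix.ofMatrix.symm (A w)) *
              V.conjTranspose).conjTranspose
        simp only [Matrix.conjTranspose_mul, Matrix.conjTranspose_conjTranspose,
          Matrix.blockDiagonal_conjTranspose, Matrix.mul_assoc] }
  exact (NonUnitalStarAlgHom.norm_apply_le Φ F).trans ((pi_norm_le_iff_of_nonneg hc).2 hF)

theorem exists_modulus {p q : ℕ} (g : Amb ℂ p q) {ε : ℝ} (hε : 0 < ε) :
    ∃ δ > 0, ∀ s t : I, |(s : ℝ) - t| < δ → ‖g s - g t‖ ≤ ε := by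
  obtain ⟨δ, hδ, h⟩ := Metric.uniformContinuous_iff.1
    (CompactSpace.uniformContinuous_of_continuous g.continuous) ε hε
  exact ⟨δ, hδ, fun s t hst => by
    have := h (a := s) (b := t) (by rwa [Subtype.dist_eq, Real.dist_eq])
    rw [dist_eq_norm] at this
    exact this.le⟩

theorem exists_flow (i : ℕ) (G : Finset (St ℂ (pp i) (qq i))) {ε : ℝ} (hε : 0 < ε) :
    ∃ n, 1 ≤ n ∧ ∃ u : Amb ℂ (pp (i + n)) (qq (i + n)),
      IsFlow (push ℂ i n '' (G : Set (St ℂ (pp i) (qq i)))) ε u := by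
  classical
  choose δ hδ hmod using fun g : St ℂ (pp i) (qq i) =>
    exists_modulus (g : Amb ℂ (pp i) (qq i)) hε
  obtain ⟨η, hη, hηG⟩ : ∃ η > 0, ∀ g ∈ G, η ≤ δ g := by
    rcases G.eq_empty_or_nonempty with h | h
    · exact ⟨1, one_pos, by simp [h]⟩
    · obtain ⟨g, hg, hmin⟩ := G.exists_min_image δ h
      exact ⟨δ g, hδ g, fun x hx => hmin x hx⟩
  obtain ⟨N, hN⟩ := exists_pow_lt_of_lt_one hη (by norm_num : (1 / 2 : ℝ) < 1)
  refine ⟨N + 1, Nat.le_add_left _ _, ?_⟩
  obtain ⟨W, hW, hW', V, lam, hV, hlip, -, hpush⟩ := exists_eigen i (N + 1)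
  beta_reduce at hpush
  refine ⟨⟨fun t => CStarMatrix.ofMatrix (V t * (V 0).conjTranspose), ?_⟩, ?_, fun t => ?_, ?_⟩
  · exact V.continuous.matrix_mul continuous_const
  · show CStarMatrix.ofMatrix (V 0 * (V 0).conjTranspose) = 1
    rw [(hV 0).2]
    rfl
  · refine Unitary.mem_iff.2 ⟨?_, ?_⟩
    · show (V t * (V 0).conjTranspose).conjTranspose * (V t * (V 0).conjTranspose) = (1 : Matrix _ _ ℂ)
      rw [Matrix.conjTranspose_mul, Matrix.conjTranspose_conjTranspose, Matrix.mul_assoc,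
        ← Matrix.mul_assoc (V t).conjTranspose, (hV t).1, Matrix.one_mul, (hV 0).2]
    · show (V t * (V 0).conjTranspose) * (V t * (V 0).conjTranspose).conjTranspose = (1 : Matrix _ _ ℂ)
      rw [Matrix.conjTranspose_mul, Matrix.conjTranspose_conjTranspose, Matrix.mul_assoc,
        ← Matrix.mul_assoc (V 0).conjTranspose, (hV 0).1, Matrix.one_mul, (hV t).2]
  · rintro _ ⟨g, hg, rfl⟩ t
    have key : (V t * (V 0).conjTranspose) *
          mat (push ℂ i (N + 1) g : Amb ℂ (pp (i + (N + 1))) (qq (i + (N + 1)))) 0 *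
          (V t * (V 0).conjTranspose).conjTranspose -
        mat (push ℂ i (N + 1) g : Amb ℂ (pp (i + (N + 1))) (qq (i + (N + 1)))) t =
        V t * Matrix.blockDiagonal (fun w => CStarMatrix.ofMatrix.symm
          ((g : Amb ℂ (pp i) (qq i)) (lam w 0) - (g : Amb ℂ (pp i) (qq i)) (lam w t))) *
          (V t).conjTranspose := by
      rw [hpush, hpush, Matrix.conjTranspose_mul, Matrix.conjTranspose_conjTranspose]
      simp only [Matrix.mul_assoc]
      rw [← Matrix.mul_assoc (V 0).conjTranspose, (hV 0).1, Matrix.one_mul,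
        ← Matrix.mul_assoc (V 0).conjTranspose (V 0), (hV 0).1, Matrix.one_mul, ← Matrix.mul_sub,
        ← Matrix.sub_mul, ← Matrix.blockDiagonal_sub]
      rfl
    refine le_trans (le_of_eq (congrArg _ ?_)) (norm_sandwich_le (V t) (hV t).1 (hV t).2
      (fun w => (g : Amb ℂ (pp i) (qq i)) (lam w 0) - (g : Amb ℂ (pp i) (qq i)) (lam w t))
      hε.le fun w => hmod g _ _ ?_)
    · exact key
    · refine lt_of_le_of_lt ((hlip w 0 t).trans ?_) (hN.trans_le (hηG g hg))
      rw [one_div, inv_pow, div_le_iff₀ (by positivity), pow_succ, inv_mul_cancel_left₀ (by positivity)]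
      rw [abs_le]
      constructor <;> push_cast <;> linarith [t.2.1, t.2.2]

end Vale.Agent.P101.Lit
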