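import Vale.Agent.P101.Lit.Basic
import Vale.Agent.P101.Lit.Model.Path.Exists

/-! P101: the connecting maps are unital isometric star homomorphisms of the stages. -/

namespace Vale.Agent.P101.Lit

open scoped unitInterval ComplexOrder
open Matrix

variable {B : Type*} [CStarAlgebra B] [PartialOrder B] [StarOrderedRing B] {p q k₀ k₁ : ℕ}

/-- The arithmetic conditions under which a path exists. -/
def StepOK (p q k₀ k₁ : ℕ) : Prop :=
  0 < p ∧ 0 < q ∧ 2 * q < k₀ ∧ 2 * p < k₁ ∧ 0 < k₀ % q ∧ 0 < k₁ % p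

theorem stepOK_pp (i : ℕ) : StepOK (pp i) (qq i) (kl i) (kr i) :=
  ⟨pp_pos i, qq_pos i, (step_conditions i).1, (step_conditions i).2.1, (step_residues i).1,
    (step_residues i).2⟩

theorem isStepPath_stepPath (h : StepOK p q k₀ k₁) :
    IsStepPath p q k₀ k₁ (stepPath p q k₀ k₁) := by
  obtain ⟨hp, hq, h₀, h₁, -, -⟩ := h
  exact Classical.epsilon_spec (exists_isStepPath hq hp (r₀_add_r₁_le hq hp h₀ h₁))

section algebra

variable {R : Type*} [Ring R] [StarRing R] [Algebra ℂ R] [StarModule ℂ R]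
  (U : Matrix (Ix (k₀ * p) (k₁ * q)) (Ix p q × Wd p q k₀ k₁) ℂ)

/-- `stepVal` as a conjugate of a block diagonal matrix. -/
theorem stepVal_eq (F : Wd p q k₀ k₁ → Ix p q → Ix p q → R) :
    Matrix.of (stepVal U F) = U.map (algebraMap ℂ R) *
      blockDiagonal (fun w => Matrix.of (F w)) * (U.map (algebraMap ℂ R))ᴴ := by
  ext x y
  simp only [Matrix.of_apply, stepVal, Matrix.mul_apply, Finset.sum_mul, conjTranspose_apply,
    map_apply, blockDiagonal_apply, mul_ite, mul_zero, ite_mul, zero_mul,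
    Fintype.sum_prod_type (α₁ := Ix p q) (α₂ := Wd p q k₀ k₁)]
  calc ∑ w, ∑ i, ∑ i', (U x (i, w) * star (U y (i', w))) • F w i i'
      = ∑ w, ∑ i', ∑ i, (U x (i, w) * star (U y (i', w))) • F w i i' :=
        Finset.sum_congr rfl fun w _ => Finset.sum_comm
    _ = ∑ i', ∑ w, ∑ i, (U x (i, w) * star (U y (i', w))) • F w i i' := Finset.sum_comm
    _ = _ := Finset.sum_congr rfl fun i' _ => Finset.sum_congr rfl fun w _ =>
        Finset.sum_congr rfl fun i _ => by
          rw [Finset.sum_eq_single w (fun v _ hv => if_neg hv) (by simp), if_pos rfl,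
            ← algebraMap_star_comm, Algebra.smul_def, map_mul, mul_assoc,
            Algebra.commutes (star (U y (i', w))) (F w i i'), ← mul_assoc]

variable (R)

theorem map_unitary (hU : Uᴴ * U = 1 ∧ U * Uᴴ = 1) :
    (U.map (algebraMap ℂ R))ᴴ * U.map (algebraMap ℂ R) = 1 ∧
      U.map (algebraMap ℂ R) * (U.map (algebraMap ℂ R))ᴴ = 1 := by
  have e : (U.map (algebraMap ℂ R))ᴴ = Uᴴ.map (algebraMap ℂ R) := by
    ext x y; simp [← algebraMap_star_comm]
  rw [e, ← Matrix.map_mul, ← Matrix.map_mul, hU.1, hU.2]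
  simp

end algebra

/-- The pointwise value of `step`. -/
theorem step_apply (f : Amb B p q) (t : I) :
    step k₀ k₁ f t = CStarMatrix.ofMatrix (Matrix.of (stepVal (stepPath p q k₀ k₁ t)
      fun w i i' => f (xi p q k₀ k₁ w t) i i')) := rfl

theorem isLeftEnd_iff {R : Type*} [Zero R] (hq : 0 < q) (m : Ix p q → Ix p q → R) :
    IsLeftEnd p q m ↔ ∀ x y : Ix p q,
      m x y = if x.2 = y.2 then m (x.1, ⟨0, hq⟩) (y.1, ⟨0, hq⟩) else 0 := by
  refine ⟨fun ⟨a, ha⟩ x y => ?_, fun h => ⟨fun i i' => m (i, ⟨0, hq⟩) (i', ⟨0, hq⟩), h⟩⟩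
  rw [ha x y, ha (x.1, ⟨0, hq⟩) (y.1, ⟨0, hq⟩), if_pos rfl]

theorem isRightEnd_iff {R : Type*} [Zero R] (hp : 0 < p) (m : Ix p q → Ix p q → R) :
    IsRightEnd p q m ↔ ∀ x y : Ix p q,
      m x y = if x.1 = y.1 then m (⟨0, hp⟩, x.2) (⟨0, hp⟩, y.2) else 0 := by
  refine ⟨fun ⟨a, ha⟩ x y => ?_, fun h => ⟨fun i i' => m (⟨0, hp⟩, i) (⟨0, hp⟩, i'), h⟩⟩
  rw [ha x y, ha (⟨0, hp⟩, x.2) (⟨0, hp⟩, y.2), if_pos rfl]

theorem map_stepVal {R : Type*} [AddCommGroup R] [Module ℂ R] (φ : Module.Dual ℂ R)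
    (U : Matrix (Ix (k₀ * p) (k₁ * q)) (Ix p q × Wd p q k₀ k₁) ℂ)
    (F : Wd p q k₀ k₁ → Ix p q → Ix p q → R) (x y : Ix (k₀ * p) (k₁ * q)) :
    φ (stepVal U F x y) = stepVal U (fun w i i' => φ (F w i i')) x y := by
  simp [stepVal, map_sum, map_smul]

theorem xi_zero_of_inl (r : Fin (r₀ q k₀ k₁)) : xi p q k₀ k₁ (.inl r) 0 = 0 := by
  ext; simp [xi]

theorem xi_zero_of_inr (w) : xi p q k₀ k₁ (.inr w) 0 = ⟨1 / 2, by constructor <;> norm_num⟩ := by
  rcases w with r | r <;> ext <;> simp [xi]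

theorem xi_one_of_inl (r : Fin (r₀ q k₀ k₁)) :
    xi p q k₀ k₁ (.inl r) 1 = ⟨1 / 2, by constructor <;> norm_num⟩ := by
  ext; simp [xi]

theorem xi_one_of_mid (r : Fin (k₀ * k₁ - r₀ q k₀ k₁ - r₁ p k₀ k₁)) :
    xi p q k₀ k₁ (.inr (.inl r)) 1 = ⟨1 / 2, by constructor <;> norm_num⟩ := by
  ext; simp [xi]

theorem xi_one_of_inr (r : Fin (r₁ p k₀ k₁)) : xi p q k₀ k₁ (.inr (.inr r)) 1 = 1 := by
  ext; simp [xi]

theorem step_mem (h : StepOK p q k₀ k₁) {f : Amb B p q} (hf : f ∈ St B p q) :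
    step k₀ k₁ f ∈ St B (k₀ * p) (k₁ * q) := by
  obtain ⟨-, hleft, hright⟩ := isStepPath_stepPath h
  obtain ⟨hp, hq, h₀, h₁, -, -⟩ := h
  obtain ⟨ha, hb⟩ := hf
  have hQ : 0 < k₁ * q := Nat.mul_pos (by omega) hq
  have hP : 0 < k₀ * p := Nat.mul_pos (by omega) hp
  set M := fun i i' => f ⟨1 / 2, by constructor <;> norm_num⟩ i i' with hM
  constructor
  · refine (isLeftEnd_iff hQ _).2 fun x y => ?_
    simp only [step_apply]
    refine sub_eq_zero.1 ((Module.forall_dual_apply_eq_zero_iff ℂ _).1 fun φ => ?_)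
    have hF : (fun w i i' => φ (f (xi p q k₀ k₁ w 0) i i')) = fun w =>
        Sum.elim (fun _ => fun i i' => φ (f 0 i i')) (fun _ => fun i i' => φ (M i i')) w := by
      funext w; rcases w with r | w
      · rw [xi_zero_of_inl]; rfl
      · rw [xi_zero_of_inr]; rfl
    have hL : IsLeftEnd p q fun i i' => φ (f 0 i i') := by
      obtain ⟨a, ha⟩ := ha
      exact ⟨fun i i' => φ (a i i'), fun i i' => by simp only [ha, apply_ite φ, map_zero]⟩
    have key := (isLeftEnd_iff hQ _).1 (hleft _ (fun i i' => φ (M i i')) hL) x y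
    rw [map_sub, apply_ite φ, map_zero φ]
    show φ (stepVal _ _ x y) - (if x.2 = y.2 then φ (stepVal _ _ _ _) else 0) = 0
    simp only [map_stepVal, hF]
    exact sub_eq_zero.2 key
  · refine (isRightEnd_iff hP _).2 fun x y => ?_
    simp only [step_apply]
    refine sub_eq_zero.1 ((Module.forall_dual_apply_eq_zero_iff ℂ _).1 fun φ => ?_)
    have hF : (fun w i i' => φ (f (xi p q k₀ k₁ w 1) i i')) = fun w =>
        Sum.elim (fun _ => fun i i' => φ (M i i'))
          (Sum.elim (fun _ => fun i i' => φ (M i i')) fun _ => fun i i' => φ (f 1 i i')) w := by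
      funext w; rcases w with r | r | r
      · rw [xi_one_of_inl]; rfl
      · rw [xi_one_of_mid]; rfl
      · rw [xi_one_of_inr]; rfl
    have hR : IsRightEnd p q fun i i' => φ (f 1 i i') := by
      obtain ⟨b, hb⟩ := hb
      exact ⟨fun i i' => φ (b i i'), fun i i' => by simp only [hb, apply_ite φ, map_zero]⟩
    have key := (isRightEnd_iff hP _).1 (hright (fun i i' => φ (M i i')) _ hR) x y
    rw [map_sub, apply_ite φ, map_zero φ]
    show φ (stepVal _ _ x y) - (if x.1 = y.1 then φ (stepVal _ _ _ _) else 0) = 0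
    simp only [map_stepVal, hF]
    exact sub_eq_zero.2 key

theorem step_cst (h : StepOK p q k₀ k₁) (b : B) :
    step k₀ k₁ (cst B p q b : Amb B p q) = (cst B (k₀ * p) (k₁ * q) b : Amb B _ _) := by
  refine ContinuousMap.ext fun t => CStarMatrix.ext fun x y => ?_
  have hU := congrFun (congrFun ((isStepPath_stepPath h).1 t).2 x) y
  rw [Matrix.mul_apply, Matrix.one_apply, Fintype.sum_prod_type, Finset.sum_comm] at hU
  show stepVal _ (fun w i i' => (cst B p q b : Amb B p q) (xi p q k₀ k₁ w t) i i') x y = _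
  rw [cst_apply]
  simp only [stepVal, cst_apply, smul_ite, smul_zero, Finset.sum_ite_eq, Finset.mem_univ, if_true,
    ← Finset.sum_smul]
  simp only [conjTranspose_apply] at hU
  rw [hU, ite_smul, one_smul, zero_smul]

theorem step_one (h : StepOK p q k₀ k₁) : step k₀ k₁ (1 : Amb B p q) = 1 := by
  have := step_cst h (1 : B)
  simpa using this

theorem step_mul (h : StepOK p q k₀ k₁) (f g : Amb B p q) :
    step k₀ k₁ (f * g) = step k₀ k₁ f * step k₀ k₁ g := by
  refine ContinuousMap.ext fun t => ?_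
  obtain ⟨hU, -⟩ := map_unitary B _ ((isStepPath_stepPath h).1 t)
  set U := (stepPath p q k₀ k₁ t).map (algebraMap ℂ B)
  have key : ∀ f' : Amb B p q, (step k₀ k₁ f' t : Matrix _ _ B) = U *
      blockDiagonal (fun w => Matrix.of fun i i' => f' (xi p q k₀ k₁ w t) i i') * Uᴴ := fun f' =>
    stepVal_eq _ _
  refine (key (f * g)).trans ?_
  refine Eq.trans ?_ (congrArg₂ (fun a b : Matrix _ _ B => a * b) (key f) (key g)).symm
  have e : (blockDiagonal fun w => Matrix.of fun i i' => (f * g) (xi p q k₀ k₁ w t) i i') =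
      blockDiagonal (fun w => Matrix.of fun i i' => f (xi p q k₀ k₁ w t) i i') *
        blockDiagonal (fun w => Matrix.of fun i i' => g (xi p q k₀ k₁ w t) i i') := by
    rw [← blockDiagonal_mul]; rfl
  rw [e]
  have e2 : ∀ D D' : Matrix (Ix p q × Wd p q k₀ k₁) (Ix p q × Wd p q k₀ k₁) B,
      U * (D * D') * Uᴴ = U * D * Uᴴ * (U * D' * Uᴴ) := fun D D' => by
    simp only [Matrix.mul_assoc]
    rw [← Matrix.mul_assoc Uᴴ U, hU, Matrix.one_mul]
  exact e2 _ _

theorem step_add (f g : Amb B p q) : step k₀ k₁ (f + g) = step k₀ k₁ f + step k₀ k₁ g := by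
  refine ContinuousMap.ext fun t => CStarMatrix.ext fun x y => ?_
  show stepVal _ (fun w i i' => f (xi p q k₀ k₁ w t) i i' + g (xi p q k₀ k₁ w t) i i') x y =
    stepVal _ _ x y + stepVal _ _ x y
  simp [stepVal, smul_add, Finset.sum_add_distrib]

theorem step_smul (c : ℂ) (f : Amb B p q) : step k₀ k₁ (c • f) = c • step k₀ k₁ f := by
  refine ContinuousMap.ext fun t => CStarMatrix.ext fun x y => ?_
  show stepVal _ (fun w i i' => c • f (xi p q k₀ k₁ w t) i i') x y = c • stepVal _ _ x y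
  simp [stepVal, Finset.smul_sum, smul_comm c]

theorem step_star (f : Amb B p q) : step k₀ k₁ (star f) = star (step k₀ k₁ f) := by
  refine ContinuousMap.ext fun t => CStarMatrix.ext fun x y => ?_
  show stepVal _ (fun w i i' => star (f (xi p q k₀ k₁ w t) i' i)) x y = star (stepVal _ _ y x)
  simp only [stepVal, star_sum, star_smul, star_mul', star_star]
  refine Finset.sum_congr rfl fun w _ => ?_
  rw [Finset.sum_comm]
  simp only [mul_comm]

theorem step_lift (g : St ℂ p q) (hg : step k₀ k₁ (g : Amb ℂ p q) ∈ St ℂ (k₀ * p) (k₁ * q)) :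
    step k₀ k₁ (lift B p q g : Amb B p q) =
      (lift B (k₀ * p) (k₁ * q) ⟨_, hg⟩ : Amb B _ _) := by
  refine ContinuousMap.ext fun t => CStarMatrix.ext fun x y => ?_
  show stepVal _ (fun w i i' => algebraMap ℂ B ((g : Amb ℂ p q) (xi p q k₀ k₁ w t) i i')) x y =
    algebraMap ℂ B (stepVal _ _ x y)
  simp [stepVal, map_sum, Algebra.smul_def]

/-- `step` is injective. -/
theorem step_eq_zero (h : StepOK p q k₀ k₁) {f : Amb B p q} (hf : step k₀ k₁ f = 0) : f = 0 := by
  have hz : ∀ w t i i', f (xi p q k₀ k₁ w t) i i' = 0 := by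
    intro w t i i'
    obtain ⟨hU, -⟩ := map_unitary B _ ((isStepPath_stepPath h).1 t)
    set U := (stepPath p q k₀ k₁ t).map (algebraMap ℂ B)
    set D := blockDiagonal fun w => Matrix.of fun i i' => f (xi p q k₀ k₁ w t) i i' with hD
    have e : U * D * Uᴴ = 0 :=
      (stepVal_eq _ _).symm.trans (congrArg (fun F : Amb B (k₀ * p) (k₁ * q) => F t) hf)
    have e' : D = 0 := by
      calc D = Uᴴ * U * D * (Uᴴ * U) := by rw [hU]; simp
        _ = Uᴴ * (U * D * Uᴴ) * U := by simp only [Matrix.mul_assoc]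
        _ = 0 := by rw [e]; simp
    have := congrFun (congrFun e' (i, w)) (i', w)
    simpa [hD, blockDiagonal_apply] using this
  obtain ⟨hp, hq, h₀, h₁, hr₀, hr₁⟩ := h
  refine ContinuousMap.ext fun s => CStarMatrix.ext fun i i' => ?_
  rcases le_total (s : ℝ) (1 / 2) with hs | hs
  · have t := hz (.inl ⟨0, Nat.mul_pos (by omega) hr₀⟩) ⟨2 * s, by linarith [s.2.1], by linarith⟩ i i'
    have e : xi p q k₀ k₁ (.inl ⟨0, Nat.mul_pos (by omega) hr₀⟩)
        ⟨2 * s, by linarith [s.2.1], by linarith⟩ = s := Subtype.ext (by simp [xi])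
    rw [e] at t; exact t
  · have t := hz (.inr (.inr ⟨0, Nat.mul_pos (by omega) hr₁⟩))
      ⟨2 * s - 1, by linarith, by linarith [s.2.2]⟩ i i'
    have e : xi p q k₀ k₁ (.inr (.inr ⟨0, Nat.mul_pos (by omega) hr₁⟩))
        ⟨2 * s - 1, by linarith, by linarith [s.2.2]⟩ = s := Subtype.ext (by simp [xi])
    rw [e] at t; exact t

theorem norm_step (h : StepOK p q k₀ k₁) (f : Amb B p q) : ‖step k₀ k₁ f‖ = ‖f‖ := by
  let Φ : Amb B p q →⋆ₙₐ[ℂ] Amb B (k₀ * p) (k₁ * q) :=
    { toFun := step k₀ k₁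
      map_smul' := fun c f => step_smul c f
      map_zero' := by simpa using step_smul (k₀ := k₀) (k₁ := k₁) (0 : ℂ) (0 : Amb B p q)
      map_add' := step_add
      map_mul' := step_mul h
      map_star' := step_star }
  exact NonUnitalStarAlgHom.norm_map Φ
    ((injective_iff_map_eq_zero Φ).2 fun f hf => step_eq_zero h hf) f

end Vale.Agent.P101.Lit
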