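import Vale.Agent.P101.Lit.Model.Path

/-! P101: the connecting maps as star homomorphisms, and their compositions. -/

namespace Vale.Agent.P101.Lit

open scoped unitInterval ComplexOrder

variable (B : Type*) [CStarAlgebra B] [PartialOrder B] [StarOrderedRing B]

/-- The connecting map from stage `i` to stage `i + 1`. -/
noncomputable def stepHom (i : ℕ) :
    St B (pp i) (qq i) →⋆ₐ[ℂ] St B (pp (i + 1)) (qq (i + 1)) where
  toFun f := ⟨step (kl i) (kr i) (f : Amb B (pp i) (qq i)), step_mem (stepOK_pp i) f.2⟩
  map_one' := Subtype.ext (step_one (stepOK_pp i))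
  map_mul' f g := Subtype.ext (step_mul (stepOK_pp i) _ _)
  map_zero' := Subtype.ext (by
    have := step_smul (k₀ := kl i) (k₁ := kr i) (0 : ℂ) (0 : Amb B (pp i) (qq i))
    rw [zero_smul, zero_smul] at this
    exact this)
  map_add' f g := Subtype.ext (step_add _ _)
  commutes' r := Subtype.ext (by
    show step (kl i) (kr i) (algebraMap ℂ (Amb B (pp i) (qq i)) r) =
      algebraMap ℂ (Amb B (pp (i + 1)) (qq (i + 1))) r
    rw [Algebra.algebraMap_eq_smul_one, Algebra.algebraMap_eq_smul_one, step_smul,
      step_one (stepOK_pp i)]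
    rfl)
  map_star' f := Subtype.ext (step_star _)

/-- The composed connecting map from stage `i` to stage `i + n`. -/
noncomputable def push (i : ℕ) : ∀ n : ℕ,
    St B (pp i) (qq i) →⋆ₐ[ℂ] St B (pp (i + n)) (qq (i + n))
  | 0 => StarAlgHom.id ℂ _
  | n + 1 => (stepHom B (i + n)).comp (push i n)

variable {B}

theorem norm_stepHom (i : ℕ) (f : St B (pp i) (qq i)) : ‖stepHom B i f‖ = ‖f‖ :=
  norm_step (stepOK_pp i) _

theorem norm_push (i n : ℕ) (f : St B (pp i) (qq i)) : ‖push B i n f‖ = ‖f‖ := by
  induction n with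
  | zero => rfl
  | succ n ih => exact (norm_stepHom (i + n) _).trans ih

theorem push_succ (i n : ℕ) (f : St B (pp i) (qq i)) :
    push B i (n + 1) f = stepHom B (i + n) (push B i n f) := rfl

theorem push_cst (i n : ℕ) (b : B) :
    push B i n (cst B _ _ b) = cst B _ _ b := by
  induction n with
  | zero => rfl
  | succ n ih =>
    rw [push_succ, ih]
    exact Subtype.ext (step_cst (stepOK_pp _) b)

theorem push_lift (i n : ℕ) (g : St ℂ (pp i) (qq i)) :
    push B i n (lift B _ _ g) = lift B _ _ (push ℂ i n g) := by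
  induction n with
  | zero => rfl
  | succ n ih =>
    rw [push_succ, ih, push_succ]
    exact Subtype.ext (step_lift _ (step_mem (stepOK_pp _) (push ℂ i n g).2))

end Vale.Agent.P101.Lit
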